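import Vale.Agent.P281.H592.TG.FamHT
import Vale.Agent.P281.H83.HKT.Fin

/-!
# P281, project T-G (helper592): the class `T × H` (T-HKT) as `HasFam`, the theorem
-/

open Vale.Agent.P281 Vale.Agent.P281.H64 Vale.Agent.P281.H64.TK.TS
open Vale.Agent.P281.H64.Thin (IsThinSet)
open Vale.Agent.P281.H83.HK Vale.Agent.P281.H83.HKT
open Vale.Agent.P272.K (Chart IsKahler)
open scoped Manifold ContDiff

noncomputable section

namespace Vale.Agent.P281.H592.TG

theorem famHT {p d : ℕ} {X Y : Type} [TopologicalSpace X]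
    [ChartedSpace (H64.Cm (p + d)) X] [IsManifold 𝓘(ℂ, H64.Cm (p + d)) ω X] [TopologicalSpace Y]
    [ChartedSpace (H64.Cm p) Y] [IsManifold 𝓘(ℂ, H64.Cm p) ω Y] {f : X → Y} {Δ : Set X → ℝ}
    (hd : 0 < d) (h : H511.Surf.IsFibration (H64.Cm (p + d)) (H64.Cm p) f Δ)
    (hw : ∃ w : Chart (p + d) X → H64.Cm (p + d) → Matrix (Fin (p + d)) (Fin (p + d)) ℂ,
      IsKahler w) :
    ∃ H : ℕ → Set Y, (∀ k, IsThinSet (H64.Cm p) (H k)) ∧ ∀ y, (∀ k, y ∉ H k) →
      ∀ (F : Type) [TopologicalSpace F] [T2Space F] [ChartedSpace (H64.Cm d) F] (i : F → X),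
        H511.Surf.IsFibre (H64.Cm (p + d)) (H64.Cm d) f y i → IsTH d F →
        H969.TG.HasFam p d 0 f Δ :=
  famHT_of (bGlob bInd) (bForm bInd) bFib bBad H303.UF.crit H383.Gen.compl hd h hw

end Vale.Agent.P281.H592.TG
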